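import Vale.Agent.P346.Final

open Vale.Agent.P346

universe u

theorem Vale.Agent.Results.P346.Tight.result :
    ∃ (c c' : ℝ) (n0 : ℕ), 0 < c ∧ ∀ (K : Type u) [Field K] [CharZero K] (n : ℕ) [NeZero n],
      n0 ≤ n →
        (n : ℝ) ^ (c * √n) ≤ minSize K n ∧ (minSize K n : ℝ) ≤ (n : ℝ) ^ (c' * √n) ∧
        ∀ C : Circuit K (Fin n × Fin n × Fin n), C.Homogeneous → C.val = IMM K n n →
          (n : ℝ) ^ (c * √n) ≤ C.size :=
  main
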